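import Vale.Agent.P004Z.W2.Lf
import Vale.Agent.P004N.H503.Sum
import Vale.Agent.P004N.H449.N0

/-! # P014T: values and derivatives of `L`-functions of cusp forms at `s = 1` as integrals -/

set_option linter.all false

open Complex UpperHalfPlane Filter Topology Set Asymptotics MeasureTheory
open scoped Real MatrixGroups ModularForm NumberTheorySymbols

noncomputable section

namespace Vale.Agent.P014T.An

open P004N P004Z P004Z.W2

/-- `∑ c n q ^ n` on the imaginary axis -/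
def qs (c : ℕ → ℂ) (y : ℝ) : ℂ := ∑' n : ℕ, c n * ee (n * (Complex.I * y))

/-- `L(c, 1)` -/
def M0 (c : ℕ → ℂ) : ℂ := 2 * π * ∫ y in Ioi (0 : ℝ), qs c y

/-- `L'(c, 1)` if `L(c, 1) = 0` -/
def M1 (c : ℕ → ℂ) : ℂ := 2 * π * ∫ y in Ioi (0 : ℝ), qs c y * (Real.log y : ℝ)

/-- `L` continues `∑ c n / n ^ s` to a neighbourhood of `1 ≤ re s` -/
def Ct (c : ℕ → ℂ) (L : ℂ → ℂ) : Prop :=
  AnalyticOnNhd ℂ L {s : ℂ | 1 ≤ s.re} ∧ ∀ s : ℂ, 3 / 2 < s.re → LSeriesHasSum c s (L s)

/-- sequences whose series is bounded near `0` on the imaginary axis -/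
structure Gd (c : ℕ → ℂ) : Prop where
  z : c 0 = 0
  sm : ∀ s : ℂ, 3 / 2 < s.re → LSeriesSummable c s
  bd : qs c =O[𝓝[>] 0] fun _ => (1 : ℝ)

variable {M p S : ℕ} {H : ℍ → ℂ} {c d : ℕ → ℂ} {L L' : ℂ → ℂ} {t : ℝ}

theorem m1 : (1 : ℂ) ∈ {s : ℂ | 1 ≤ s.re} := by simp

theorem ev_eq (h : AnalyticOnNhd ℂ L {s : ℂ | 1 ≤ s.re}) (h' : AnalyticOnNhd ℂ L' {s : ℂ | 1 ≤ s.re})
    (e : ∀ s : ℂ, 2 < s.re → L s = L' s) : (∀ s : ℂ, 1 ≤ s.re → L s = L' s) ∧ L =ᶠ[𝓝 1] L' := by
  have eq := h.eqOn_of_preconnected_of_eventuallyEq h' (convex_halfSpace_re_ge 1).isPreconnected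
    (z₀ := 3) (by norm_num) (((isOpen_lt continuous_const Complex.continuous_re).eventually_mem
      (show (3 : ℂ) ∈ {s : ℂ | 2 < s.re} by norm_num)).mono e)
  refine ⟨fun s k => eq k, ((h 1 m1).frequently_eq_iff_eventually_eq (h' 1 m1)).1 ?_⟩
  have t : Tendsto (fun x : ℝ => (x : ℂ)) (𝓝[>] 1) (𝓝[≠] 1) :=
    tendsto_nhdsWithin_iff.2 ⟨(continuous_ofReal.tendsto' 1 1 rfl).mono_left nhdsWithin_le_nhds,
      eventually_mem_nhdsWithin.mono fun x (k : 1 < x) (e : (x : ℂ) = 1) =>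
        k.ne' (by exact_mod_cast e)⟩
  exact t.frequently (Eventually.frequently (eventually_mem_nhdsWithin.mono fun x (k : 1 < x) =>
    eq (by simpa using k.le)))

theorem Ct.ev (h : Ct c L) (h' : Ct c L') :
    (∀ s : ℂ, 1 ≤ s.re → L s = L' s) ∧ L =ᶠ[𝓝 1] L' :=
  ev_eq h.1 h'.1 fun s k => (h.2 s (by linarith)).unique (h'.2 s (by linarith))

theorem ee_I (n : ℕ) (t : ℝ) :
    ee (n * (Complex.I * t)) = (Real.exp (-(2 * π * n * t)) : ℝ) := by
  rw [ee, ofReal_exp]
  congr 1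
  push_cast
  linear_combination (2 * π * n * t : ℂ) * I_sq

theorem nrm (c : ℕ → ℂ) (n : ℕ) (t : ℝ) :
    ‖c n * ee (n * (Complex.I * t))‖ = ‖c n‖ * Real.exp (-(2 * π * n * t)) := by
  rw [norm_mul, ee_I, norm_real, Real.norm_of_nonneg (Real.exp_pos _).le]

theorem sn (h : LSeriesSummable c 2) (k : 0 < t) :
    Summable fun n : ℕ => ‖c n * ee (n * (Complex.I * t))‖ := by
  obtain ⟨C, hC⟩ := h.le_const_mul_rpow
  refine ((Real.summable_pow_mul_exp_neg_nat_mul 2 (r := 2 * π * t) (by positivity)).mul_left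
    C).of_norm_bounded_eventually_nat ((eventually_ne_atTop 0).mono fun n e => ?_)
  have := hC n e
  rw [norm_norm, nrm, ← mul_assoc, show -(2 * π * t) * n = -(2 * π * n * t) by ring]
  gcongr
  simpa using this

namespace Gd

theorem s2 (h : Gd c) : LSeriesSummable c 2 := h.sm 2 (by norm_num)

theorem hs (h : Gd c) (k : 0 < t) :
    HasSum (fun n : ℕ => c n * ee (n * (Complex.I * t))) (qs c t) := (sn h.s2 k).of_norm.hasSum

theorem cont (h : Gd c) : ContinuousOn (qs c) (Ioi 0) := fun t (k : 0 < t) =>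
  ((continuousOn_tsum (s := Ioi (t / 2)) (fun n => by unfold ee; fun_prop) (sn h.s2 (half_pos k))
    fun n x (m : t / 2 < x) => by rw [nrm, nrm]; gcongr).continuousAt
      (Ioi_mem_nhds (half_lt_self k))).continuousWithinAt

theorem top (h : Gd c) : qs c =O[atTop] fun t => Real.exp (-(2 * π) * t) :=
  .of_bound (Real.exp (2 * π) * ∑' n : ℕ, ‖c n * ee (n * (Complex.I * (1 : ℝ)))‖)
    ((eventually_ge_atTop 1).mono fun t k => by
      rw [Real.norm_of_nonneg (Real.exp_pos _).le, mul_right_comm, ← tsum_mul_left]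
      refine tsum_of_norm_bounded ((sn h.s2 one_pos).mul_left _).hasSum fun n => ?_
      rcases Nat.eq_zero_or_pos n with rfl | e
      · simp [h.z]
      · have : (1 : ℝ) ≤ n := by exact_mod_cast e
        rw [nrm, nrm, ← Real.exp_add, mul_left_comm, ← Real.exp_add]
        gcongr
        nlinarith [mul_nonneg Real.pi_pos.le (mul_nonneg (sub_nonneg.2 this) (sub_nonneg.2 k))])

theorem der (h : Gd c) {s : ℂ} (k : 0 < s.re) : MellinConvergent (qs c) s ∧
    MellinConvergent (fun t => Real.log t • qs c t) s ∧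
    HasDerivAt (mellin (qs c)) (mellin (fun t => Real.log t • qs c t) s) s := by
  have a := h.cont.locallyIntegrableOn (μ := volume) measurableSet_Ioi
  have b := h.top.trans (isLittleO_exp_neg_mul_rpow_atTop Real.two_pi_pos (-(s.re + 1))).isBigO
  have e : qs c =O[𝓝[>] 0] fun t : ℝ => t ^ (-(0 : ℝ)) := by simpa using h.bd
  exact ⟨mellinConvergent_of_isBigO_rpow a b (lt_add_one _) e k,
    mellin_hasDerivAt_of_isBigO_rpow a b (lt_add_one _) e k⟩

theorem int0 (h : Gd c) : IntegrableOn (qs c) (Ioi 0) := by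
  simpa [MellinConvergent] using (h.der (s := 1) (by simp)).1

theorem int1 (h : Gd c) : IntegrableOn (fun y => qs c y * (Real.log y : ℝ)) (Ioi 0) := by
  simpa [MellinConvergent, mul_comm] using (h.der (s := 1) (by simp)).2.1

theorem qs_add (h : Gd c) (h' : Gd d) (k : 0 < t) : qs (c + d) t = qs c t + qs d t := by
  simpa only [qs, Pi.add_apply, add_mul] using (h.hs k).summable.tsum_add (h'.hs k).summable

end Gd

theorem qs_smul (x : ℂ) (c : ℕ → ℂ) (t : ℝ) : qs (x • c) t = x * qs c t := by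
  simp only [qs, Pi.smul_apply, smul_eq_mul, mul_assoc, tsum_mul_left]

theorem M0_smul (x : ℂ) (c : ℕ → ℂ) : M0 (x • c) = x * M0 c := by
  simp only [M0, qs_smul, integral_const_mul, mul_left_comm x]

theorem M1_smul (x : ℂ) (c : ℕ → ℂ) : M1 (x • c) = x * M1 c := by
  simp only [M1, qs_smul, mul_assoc x, integral_const_mul]
  ring

theorem Gd.smul (h : Gd c) (x : ℂ) : Gd (x • c) :=
  ⟨by simp [h.z], fun s k => (h.sm s k).smul x, by
    rw [funext (qs_smul x c)]; exact h.bd.const_mul_left x⟩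

theorem Gd.add (h : Gd c) (h' : Gd d) : Gd (c + d) :=
  ⟨by simp [h.z, h'.z], fun s k => (h.sm s k).add (h'.sm s k), (h.bd.add h'.bd).congr'
    (eventually_mem_nhdsWithin.mono fun t k => (h.qs_add h' k).symm) .rfl⟩

theorem Gd.M0_add (h : Gd c) (h' : Gd d) : M0 (c + d) = M0 c + M0 d := by
  rw [M0, setIntegral_congr_fun measurableSet_Ioi fun t k => h.qs_add h' k,
    integral_add h.int0 h'.int0, mul_add, M0, M0]

theorem Gd.M1_add (h : Gd c) (h' : Gd d) : M1 (c + d) = M1 c + M1 d := by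
  rw [M1, setIntegral_congr_fun measurableSet_Ioi fun t k => by rw [h.qs_add h' k, add_mul],
    integral_add h.int1 h'.int1, mul_add, M1, M1]

theorem gd_zero : Gd 0 := ⟨rfl, fun _ _ => LSeriesSummable_zero, by
  rw [show qs 0 = fun _ => 0 from funext fun _ => by simp [qs]]; exact isBigO_zero _ _⟩

/-- finite sums -/
theorem gd_sum {ι : Type*} (T : Finset ι) {f : ι → ℕ → ℂ} (h : ∀ i ∈ T, Gd (f i)) :
    Gd (∑ i ∈ T, f i) ∧ M0 (∑ i ∈ T, f i) = ∑ i ∈ T, M0 (f i) ∧
      M1 (∑ i ∈ T, f i) = ∑ i ∈ T, M1 (f i) := by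
  induction T using Finset.cons_induction with
  | empty => exact ⟨gd_zero, by simp [M0, qs], by simp [M1, qs]⟩
  | cons i T m ih =>
    obtain ⟨a, b, e⟩ := ih fun j k => h j (Finset.mem_cons_of_mem k)
    have g := h i (Finset.mem_cons_self _ _)
    simp only [Finset.sum_cons]
    exact ⟨g.add a, by rw [g.M0_add a, b], by rw [g.M1_add a, e]⟩

theorem M0_eq (c : ℕ → ℂ) : M0 c = 2 * π * mellin (qs c) 1 := by simp [M0, mellin]

theorem M1_eq (c : ℕ → ℂ) : M1 c = 2 * π * mellin (fun t => Real.log t • qs c t) 1 := by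
  simp [M1, mellin, mul_comm]

/-- **the Mellin transform** -/
theorem Gd.mel (h : Gd c) : ∃ Λ, Ct c Λ ∧ Λ 1 = M0 c ∧ (M0 c = 0 → deriv Λ 1 = M1 c) := by
  have z := h.z
  have p2 : ((2 * π : ℝ) : ℂ) ≠ 0 := by exact_mod_cast Real.two_pi_pos.ne'
  have d : Differentiable ℂ fun s : ℂ => ((2 * π : ℝ) : ℂ) ^ s * (Gamma s)⁻¹ :=
    (differentiable_id.const_cpow (.inl p2)).mul differentiable_one_div_Gamma
  have o : IsOpen {s : ℂ | 0 < s.re} := isOpen_lt continuous_const continuous_re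
  refine ⟨fun s => ((2 * π : ℝ) : ℂ) ^ s * (Gamma s)⁻¹ * mellin (qs c) s,
    ⟨(DifferentiableOn.analyticOnNhd (fun s k => ((d s).mul
      (h.der k).2.2.differentiableAt).differentiableWithinAt) o).mono
      fun s (k : 1 ≤ s.re) => one_pos.trans_le k, fun s k => ?_⟩, by simp [M0_eq], fun e => ?_⟩
  · have hs := h.sm s k
    have g : Gamma s ≠ 0 := Gamma_ne_zero_of_re_pos (by linarith)
    have w : ((2 * π : ℝ) : ℂ) ^ s ≠ 0 := by simp
    refine ((hasSum_mellin (a := c) (p := fun n => 2 * π * n) (F := qs c)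
      (fun n => ?_) (by linarith) (fun t (k : 0 < t) => ?_) ?_).mul_left _).congr_fun' fun n => ?_
    · rcases Nat.eq_zero_or_pos n with rfl | e
      · exact .inl z
      · exact .inr (by positivity)
    · simpa only [ee_I, neg_mul] using h.hs k
    · refine (hs.norm.div_const ((2 * π) ^ s.re)).congr fun n => ?_
      rw [LSeries.norm_term_eq]
      split_ifs with e
      · rw [e, z]
        simp
      · rw [Real.mul_rpow (x := 2 * π) (by positivity) (by positivity)]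
        ring
    · rw [LSeries.term_def]
      split_ifs with e
      · rw [e, z]
        simp
      · rw [ofReal_mul (2 * π), mul_cpow_ofReal_nonneg (by positivity) (by positivity),
          ofReal_natCast]
        field_simp
  · have e0 : mellin (qs c) 1 = 0 := by simpa [M0_eq] using e
    rw [((d 1).hasDerivAt.fun_mul (h.der (by simp)).2.2).deriv, e0, M1_eq]
    simp

theorem term_eq (z : c 0 = 0) (s : ℂ) : LSeries.term c s = fun n : ℕ => c n / (n : ℂ) ^ s := by
  funext n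
  rcases eq_or_ne n 0 with rfl | hn
  · simp [z]
  · rw [LSeries.term_of_ne_zero hn]

theorem Ct.ser (k : Ct c L) (z : c 0 = 0) (s : ℂ) (m : 2 < s.re) :
    L s = ∑' n : ℕ, c n / (n : ℂ) ^ s := by
  rw [← term_eq z, (k.2 s (by linarith)).tsum_eq]

/-- existence of the continuation -/
theorem Gd.ex (h : Gd c) : ∃ L, AnalyticOnNhd ℂ L {s : ℂ | 1 ≤ s.re} ∧
    ∀ s : ℂ, 2 < s.re → L s = ∑' n : ℕ, c n / (n : ℂ) ^ s :=
  h.mel.imp fun _ k => ⟨k.1.1, k.1.ser h.z⟩

/-- **the value and the derivative** of any continuation -/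
theorem Gd.val (h : Gd c) (a : AnalyticOnNhd ℂ L {s : ℂ | 1 ≤ s.re})
    (b : ∀ s : ℂ, 2 < s.re → L s = ∑' n : ℕ, c n / (n : ℂ) ^ s) :
    Ct c L ∧ L 1 = M0 c ∧ (L 1 = 0 → deriv L 1 = M1 c) := by
  obtain ⟨Λ, k, e, d⟩ := h.mel
  obtain ⟨f, g⟩ := ev_eq a k.1 fun s m => (b s m).trans (k.ser h.z s m).symm
  refine ⟨⟨a, fun s m => f s (by linarith) ▸ k.2 s m⟩, ?_⟩
  rw [g.eq_of_nhds, g.deriv_eq, e]
  exact ⟨rfl, d⟩

theorem Ct.val (k : Ct c L) (h : Gd c) : L 1 = M0 c ∧ (L 1 = 0 → deriv L 1 = M1 c) :=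
  (h.val k.1 (k.ser h.z)).2

/-- the order of vanishing -/
theorem ord_le (h : AnalyticAt ℂ L 1) : (analyticOrderAt L 1 = 0 ↔ L 1 ≠ 0) ∧
    (analyticOrderAt L 1 = 1 ↔ L 1 = 0 ∧ deriv L 1 ≠ 0) ∧
    (analyticOrderAt L 1 ≤ 1 ↔ L 1 ≠ 0 ∨ L 1 = 0 ∧ deriv L 1 ≠ 0) := by
  have a := h.analyticOrderAt_eq_zero
  have b : analyticOrderAt L 1 = 1 ↔ L 1 = 0 ∧ deriv L 1 ≠ 0 := by
    refine ⟨fun e => ?_, fun e => h.analyticOrderAt_eq_one_of_zero_deriv_ne_zero e.1 e.2⟩
    have z : L 1 = 0 := by_contra fun z => by simp [a.2 z] at e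
    refine ⟨z, h.deriv.analyticOrderAt_eq_zero.1 ?_⟩
    have := h.analyticOrderAt_deriv_add_one
    simp only [z, sub_zero] at this
    rw [show (fun x => L x) = L from rfl, e] at this
    simpa using this
  exact ⟨a, b, by rw [ENat.le_one_iff_eq_zero_or_eq_one, a, b]⟩

/-- the order in terms of the integrals -/
theorem Ct.ord (k : Ct c L) (h : Gd c) : (analyticOrderAt L 1 = 0 ↔ M0 c ≠ 0) ∧
    (analyticOrderAt L 1 = 1 ↔ M0 c = 0 ∧ M1 c ≠ 0) := by
  obtain ⟨a, b⟩ := k.val h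
  obtain ⟨e, f, -⟩ := ord_le (k.1 1 m1)
  exact ⟨a ▸ e, f.trans (a ▸ and_congr_right fun z => by rw [b z])⟩

/-! ### Euler factors -/

/-- `q ↦ q ^ p` -/
def V (p : ℕ) (c : ℕ → ℂ) (n : ℕ) : ℂ := if p ∣ n then c (n / p) else 0

theorem V_mul (hp : 0 < p) (c : ℕ → ℂ) (n : ℕ) : V p c (p * n) = c n := by
  rw [V, if_pos (dvd_mul_right _ _), Nat.mul_div_cancel_left _ hp]

theorem V_off {n : ℕ} (k : n ∉ range fun m => p * m) : V p c n = 0 :=
  if_neg fun ⟨m, e⟩ => k ⟨m, e.symm⟩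

theorem qs_V (hp : 0 < p) (c : ℕ → ℂ) (t : ℝ) : qs (V p c) t = qs c (p * t) := by
  rw [qs, ← (mul_right_injective₀ hp.ne').tsum_eq fun n k => by_contra fun m => k (by
    simp only [V_off m, zero_mul])]
  refine tsum_congr fun n => ?_
  rw [V_mul hp]
  congr 2
  push_cast
  ring

theorem Gd.V (h : Gd c) (hp : 0 < p) : Gd (V p c) := by
  have z : An.V p c 0 = 0 := by simpa [h.z] using V_mul hp c 0
  have q : (0 : ℝ) < p := Nat.cast_pos.2 hp
  refine ⟨z, fun s k => ?_, ?_⟩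
  · have := h.sm s k
    rw [LSeriesSummable, term_eq h.z] at this
    rw [LSeriesSummable, term_eq z, ← (mul_right_injective₀ hp.ne').summable_iff fun n m => by
      simp only [V_off m, zero_div]]
    refine (this.div_const ((p : ℂ) ^ s)).congr fun n => ?_
    simp only [Function.comp, V_mul hp, Nat.cast_mul, natCast_mul_natCast_cpow]
    ring
  · rw [funext (qs_V hp c)]
    exact h.bd.comp_tendsto (k := fun t : ℝ => p * t) (tendsto_nhdsWithin_iff.2
      ⟨((continuous_const_mul _).tendsto' 0 0 (mul_zero _)).mono_left nhdsWithin_le_nhds,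
        eventually_mem_nhdsWithin.mono fun t k => mul_pos q k⟩)

theorem M0_V (hp : 0 < p) (c : ℕ → ℂ) : M0 (V p c) = M0 c / p := by
  simp only [M0, qs_V hp]
  rw [integral_comp_mul_left_Ioi (qs c) 0 (Nat.cast_pos.2 hp), mul_zero, real_smul]
  push_cast
  ring

theorem Gd.M1_V (h : Gd c) (hp : 0 < p) : M1 (An.V p c) = (M1 c - Real.log p * M0 c) / p := by
  have q : (0 : ℝ) < p := Nat.cast_pos.2 hp
  have e := integral_comp_mul_left_Ioi
    (fun y => qs c y * (Real.log y : ℝ) - (Real.log p : ℝ) * qs c y) 0 q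
  rw [mul_zero, integral_sub h.int1 (h.int0.const_mul _), integral_const_mul, real_smul] at e
  rw [M1, setIntegral_congr_fun measurableSet_Ioi (g := fun y => qs c (p * y) *
    (Real.log (p * y) : ℝ) - (Real.log p : ℝ) * qs c (p * y)) fun y (k : 0 < y) => by
      simp only [qs_V hp, Real.log_mul q.ne' k.ne', ofReal_add]
      ring, e, M1, M0, ofReal_inv, ofReal_natCast]
  ring

/-- the Hecke relation at `p` -/
def Rl (c : ℕ → ℂ) (p : ℕ) (α ρ : ℂ) : Prop :=
  ∀ n, c (p * n) = α * c n - if p ∣ n then ρ * c (n / p) else 0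

/-- the terms prime to `S` -/
def cp (S : ℕ) (c : ℕ → ℂ) (n : ℕ) : ℂ := if n.Coprime S then c n else 0

variable {x y : ℂ} {α ρ : ℕ → ℂ}

theorem cp_one (c : ℕ → ℂ) : cp 1 c = c := funext fun n => if_pos (Nat.coprime_one_right n)

theorem cp_cp (S T : ℕ) (c : ℕ → ℂ) : cp S (cp T c) = cp (S * T) c := funext fun n => by
  simp only [cp, Nat.coprime_mul_iff_right, ite_and]

theorem cp_dvd (k : p ∣ S) (c : ℕ → ℂ) : cp (p * S) c = cp S c := funext fun n =>
  if_congr (Nat.coprime_mul_iff_right.trans (and_iff_right_of_imp (.coprime_dvd_right k))) rfl rfl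

theorem Rl.cp (r : Rl c p x y) (k : p.Coprime S) (hp : 0 < p) : Rl (cp S c) p x y := fun n => by
  have m : ∀ n, (p * n).Coprime S ↔ n.Coprime S := fun n =>
    Nat.coprime_mul_iff_left.trans (and_iff_right k)
  simp only [An.cp, m, r n]
  by_cases e : p ∣ n
  · obtain ⟨n, rfl⟩ := e
    simp only [m, Nat.mul_div_cancel_left _ hp]
    split_ifs <;> simp
  · simp only [e, if_false]
    split_ifs <;> simp

theorem Rl.eq (r : Rl c p x y) (hp : p.Prime) : An.cp p c = c + (-x) • V p c + y • V p (V p c) := by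
  funext n
  simp only [An.cp, Nat.coprime_comm (n := n), hp.coprime_iff_not_dvd, Pi.add_apply, Pi.smul_apply,
    smul_eq_mul]
  by_cases e : p ∣ n
  · obtain ⟨n, rfl⟩ := e
    rw [if_neg (not_not.2 (dvd_mul_right _ _)), V_mul hp.pos, V_mul hp.pos, r, V]
    split_ifs <;> ring
  · simp [V, e]

/-- **one Euler factor** -/
theorem Gd.rm (h : Gd c) (hp : p.Prime) (r : Rl c p x y) : Gd (cp p c) ∧
    M0 (cp p c) = (1 - x / p + y / p ^ 2) * M0 c ∧
    (M0 c = 0 → M1 (cp p c) = (1 - x / p + y / p ^ 2) * M1 c) := by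
  have a := h.V hp.pos
  have b := a.V hp.pos
  have e := h.add (a.smul (-x))
  rw [r.eq hp, e.M0_add (b.smul y), e.M1_add (b.smul y), h.M0_add (a.smul _), h.M1_add (a.smul _)]
  simp only [M0_smul, M1_smul, M0_V hp.pos, a.M1_V hp.pos, h.M1_V hp.pos]
  exact ⟨e.add (b.smul y), by ring, fun z => by rw [z]; ring⟩

/-- the Euler factors at the primes of `S`, at `s = 1` -/
def Eu (α ρ : ℕ → ℂ) (S : ℕ) : ℂ := ∏ p ∈ S.primeFactors, (1 - α p / p + ρ p / p ^ 2)

/-- **removing Euler factors** -/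
theorem Gd.dep (h : Gd c) (S : ℕ) : S ≠ 0 → (∀ p ∈ S.primeFactors, Rl c p (α p) (ρ p)) →
    Gd (cp S c) ∧ M0 (cp S c) = Eu α ρ S * M0 c ∧
      (M0 c = 0 → M1 (cp S c) = Eu α ρ S * M1 c) := by
  induction S using induction_on_primes with
  | zero => exact fun k => (k rfl).elim
  | one => exact fun _ _ => by simp [cp_one, Eu, h]
  | prime_mul p S hp ih =>
    intro k r
    have S0 := right_ne_zero_of_mul k
    rw [Eu, Nat.primeFactors_mul hp.ne_zero S0, hp.primeFactors, ← Finset.insert_eq] at *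
    obtain ⟨a, b, e⟩ := ih S0 fun q m => r q (Finset.mem_insert_of_mem m)
    by_cases m : p ∣ S
    · rw [cp_dvd m, Finset.insert_eq_of_mem (hp.mem_primeFactors m S0)]
      exact ⟨a, b, e⟩
    · obtain ⟨f, g, j⟩ := a.rm hp ((r p (Finset.mem_insert_self _ _)).cp
        (hp.coprime_iff_not_dvd.2 m) hp.pos)
      rw [← cp_cp, Finset.prod_insert (mt Nat.dvd_of_mem_primeFactors m), mul_assoc, mul_assoc]
      exact ⟨f, by rw [g, b], fun z => by rw [j (by rw [b, z, mul_zero]), e z]⟩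

/-! ### cusp forms -/

theorem qs_eq (q : QE H c) {t : ℝ} (k : 0 < t) : qs c t = H (ofComplex (Complex.I * t)) := by
  have := (q (ofComplex (Complex.I * t))).tsum_eq
  rw [coe_ofI k] at this
  simpa only [qs, ee, mul_assoc] using this

theorem sum32 (hM : 0 < M) (h : S2 M H) (q : QE H c) (s : ℂ) (k : 3 / 2 < s.re) :
    LSeriesSummable c s := by
  obtain ⟨C, -, hC⟩ := H449.sq_sum_S2 hM h q
  refine Summable.of_norm ((LSeriesSummable_of_sum_norm_bigO (H503.Sum.bigO (A := fun n => ‖c n‖)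
    ⟨C, hC⟩) (by norm_num) k).norm.congr fun n => ?_)
  simp [LSeries.norm_term_eq]

/-- **the coefficients of a cusp form** -/
theorem gd (hM : 0 < M) (h : S2 M H) (q : QE H c) (z : c 0 = 0) : Gd c :=
  ⟨z, sum32 hM h q, (dec_bot hM h).congr' (eventually_mem_nhdsWithin.mono fun t k =>
    (qs_eq q k).symm) (.of_forall fun t => by simp)⟩

/-! ### the sign -/

theorem fe (hM : 0 < M) (q : QE H c) {ε : ℝ} (w : ALw M M H ε) (s : ℂ) :
    mellin (qs c) s = -ε * (M : ℂ) ^ (1 - s) * mellin (qs c) (2 - s) := by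
  have p : (0 : ℝ) < M := Nat.cast_pos.2 hM
  have n : (M : ℂ) ≠ 0 := Nat.cast_ne_zero.2 hM.ne'
  have e : mellin (qs c) s = mellin (fun t : ℝ => (-ε / M : ℂ) • (t : ℂ) ^ (-2 : ℂ) •
      (fun u : ℝ => qs c u⁻¹) (M * t)) s := setIntegral_congr_fun measurableSet_Ioi
    fun t (k : 0 < t) => by
      have k' : 0 < (M * t)⁻¹ := by positivity
      have t0 : (t : ℂ) ≠ 0 := ofReal_ne_zero.2 k.ne'
      have := w 0 (-1) 1 0 (by simp) (ofComplex (Complex.I * ((M * t)⁻¹ : ℝ)))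
        (ofComplex (Complex.I * t)) (by
          rw [coe_ofI k, coe_ofI k']
          push_cast
          field_simp
          simp [mul_right_comm])
      simp only [qs_eq q k, qs_eq q k', this, coe_ofI k', smul_eq_mul, cpow_neg, cpow_two]
      push_cast
      field_simp
      simp
  rw [e, mellin_const_smul, mellin_cpow_smul, mellin_comp_mul_left (fun u : ℝ => qs c u⁻¹) _ p, mellin_comp_inv,
    show -(s + -2) = 2 - s by ring, show 2 - s = 1 - s + 1 by ring, ofReal_natCast,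
    cpow_add _ _ n, cpow_one, smul_eq_mul, smul_eq_mul]
  field_simp

/-- **the sign of the functional equation** -/
theorem sign (hM : 0 < M) (h : Gd c) (q : QE H c) {ε : ℝ} (w : ALw M M H ε) :
    (M0 c ≠ 0 → ε = -1) ∧ (M0 c = 0 → M1 c ≠ 0 → ε = 1) := by
  have n : (M : ℂ) ≠ 0 := Nat.cast_ne_zero.2 hM.ne'
  have d := (h.der (s := 1) (by simp)).2.2
  refine ⟨fun k => ?_, fun k k' => ?_⟩
  · have := fe hM q w 1
    rw [sub_self, cpow_zero, show (2 : ℂ) - 1 = 1 by norm_num, mul_one, eq_comm,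
      mul_eq_right₀ fun z => k (by rw [M0_eq, z, mul_zero])] at this
    exact_mod_cast neg_eq_iff_eq_neg.1 this
  · have e0 : mellin (qs c) 1 = 0 := by simpa [M0_eq] using k
    have d1 : HasDerivAt (fun s : ℂ => mellin (qs c) (2 - s))
        (-mellin (fun t => Real.log t • qs c t) 1) 1 :=
      (show (1 : ℂ) = 2 - 1 by norm_num ▸ d : HasDerivAt _ _ (2 - 1 : ℂ)).comp_const_sub 2 1
    have d2 : DifferentiableAt ℂ (fun s : ℂ => -ε * (M : ℂ) ^ (1 - s)) 1 :=
      ((differentiableAt_id.const_sub 1).const_cpow (.inl n)).const_mul _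
    have := d.unique ((d2.hasDerivAt.fun_mul d1).congr_of_eventuallyEq (.of_forall (fe hM q w)))
    rw [show (2 : ℂ) - 1 = 1 by norm_num, e0, mul_zero, zero_add, sub_self, cpow_zero, mul_one,
      neg_mul_neg, eq_comm, mul_eq_right₀ fun z => k' (by rw [M1_eq, z, mul_zero])] at this
    exact_mod_cast this

end Vale.Agent.P014T.An
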